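import Vale.Agent.P321.H181.TSpec
import Vale.Agent.P321.H576.TSpec

/-!
LB2: the non-asymptotic T-step, literal statement (helper535, for helper117).
-/

namespace Vale.Agent.P321.LB2

open Finset

/-- **Non-asymptotic T-step.**  `F` = fine radius, `Q` = half width (in cells), `C` = cell length
(in letters), `c0` = letters before the label zone of each cell, `Mi` / `Mo` = expanded /
unexpanded context copies; `sE`, `s0`, `sP` = slips. -/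
def TCore : Prop :=
  ∀ (q : ℝ), 0 ≤ q → q ≤ 1 → ∀ (u v : List Bool), u ≠ v → v.length = u.length →
  ∀ (k m : ℕ) (d : Fin k → ℤ) (g : H576.E k → Fin m → ℤ) (F Q G : ℕ)
    (l : Finset (Fin k) → ℕ) (w w' Lb : ℕ),
    H576.Gen d g (F : ℤ) (Q : ℤ) (G : ℤ) → H576.PR m l w w' Lb → w ≠ w' →
  ∀ (c0 C Mi Mo : ℕ), 2 * c0 + Lb + 1 ≤ C → 4 * Lb ≤ C → 1 ≤ Mi → 1 ≤ Mo →
  ∀ (E1 E2 sE s0 sP : ℝ) (ME M0 MP : ℕ),
    ‖W q u ^ c0 * (W q v - W q u) * W q u ^ c0‖ ≤ E1 →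
    ‖W q u ^ (C * F) * (W q v - W q u) * W q u ^ (C * F)‖ ≤ E2 →
    (((2 * Mi + 1) * (2 * Q + 1) : ℕ) : ℝ) * E1 ≤ 1 / 2 →
    m * ME ≤ C * (Mi * Q) → 32 * (m * M0) ≤ C * Q → 4 * (m * MP) ≤ C * F →
    ‖(1 - W q u) * W q u ^ ME‖ ≤ sE → ‖(1 - W q u) * W q u ^ M0‖ ≤ s0 →
    ‖(1 - W q u) * W q u ^ MP‖ ≤ sP →
  ∃ (x x' : List Bool), x ≠ x' ∧ x'.length = x.length ∧
    x.length = C * (2 * Q + 1) * u.length ∧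
    ‖W q x - W q u ^ (C * (2 * Q + 1))‖ ≤ (2 * Q + 1) * E1 ∧
    ‖W q x' - W q x‖ ≤ 2 ^ (k ^ 2 * m + 4) * (2 * (C * 3 ^ m) * s0) ^ m
      + 4 * ((2 * Q + 1) * E1) ^ 2 ∧
    ‖W q x ^ (Mi + Mo) * (W q x' - W q x) * W q x ^ (Mi + Mo)‖ ≤
      2 ^ (k ^ 2 * m + m + 8) * (8 * F) ^ 3 * ((2 * Mi + 1) * (2 * Q + 1)) * (k + 2) ^ 4
        * ((2 * (C * G) * sE) ^ m + (2 * (C * 3 ^ m) * s0) ^ m + (2 * Lb * sP) ^ m)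
      + 2 * ((2 * Mi + 1) * (2 * Q + 1)) ^ 3 * (E1 ^ 2 * (E2 + Mo * (2 * Q + 1) * E1 ^ 2))
      + 4 * ((2 * Mi + 1) * (2 * Q + 1) * E1) ^ 4

end Vale.Agent.P321.LB2
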