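import Vale.Agent.P321.H535.AsmSpec
import Vale.Agent.P321.H35.Uni
import Vale.Agent.P321.H834.TBasic
import Vale.Agent.P321.H505.Train

/-!
LB2: the T-step from its non-asymptotic form, the numbers and the generic periods (helper535).
-/

namespace Vale.Agent.P321.LB2

open Filter Topology

/-- the numbers of one T-step; `cond k m P X` = what the existence of generic periods needs,
`G0 k m` = bound of the multipliers. -/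
structure Num (cond : ℕ → ℕ → ℕ → ℕ → Prop) (G0 : ℕ → ℕ → ℕ) (ε δ D N : ℝ)
    (m c0 C Mi Mo k P X ME M0 MP : ℕ) : Prop where
  cnd : cond k m P X
  hC1 : 2 * c0 + 2 ^ (8 * m ^ 4) + 1 ≤ C
  hC2 : 4 * 2 ^ (8 * m ^ 4) ≤ C
  mi : 1 ≤ Mi
  mo : 1 ≤ Mo
  c0lo : N ^ (1 / 5 + ε) ≤ c0
  CFlo : N ^ (1 + ε) ≤ ((C * (P ^ 2 / X / 3) : ℕ) : ℝ)
  mihi : ((Mi + Mo : ℕ) : ℝ) ≤ N ^ (8 / 5 + δ)
  nlo : N ^ (7 / 5 : ℝ) ≤ ((C * (2 * (P ^ 3 / X) + 1) : ℕ) : ℝ)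
  nhi : ((C * (2 * (P ^ 3 / X) + 1) : ℕ) : ℝ) ≤ N ^ (7 / 5 + δ)
  gE : m * ME ≤ C * (Mi * (P ^ 3 / X))
  g0 : 32 * (m * M0) ≤ C * (P ^ 3 / X)
  gP : 4 * (m * MP) ≤ C * (P ^ 2 / X / 3)
  ME1 : 1 ≤ ME
  M01 : 1 ≤ M0
  MP1 : 1 ≤ MP
  MED : (ME : ℝ) ≤ N ^ D
  M0D : (M0 : ℝ) ≤ N ^ D
  MPD : (MP : ℝ) ≤ N ^ D
  kill0 : 2 ^ (k ^ 2 * m + 4) * (2 * (C * 3 ^ m) * (N ^ ε * Real.sqrt (N / M0))) ^ m
    ≤ Real.exp (-(3 * (Real.log N) ^ (1 + 1 / 40 : ℝ)))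
  kill : 2 ^ (k ^ 2 * m + m + 8) * (8 * ((P ^ 2 / X / 3 : ℕ) : ℝ)) ^ 3
      * ((2 * Mi + 1) * (2 * ((P ^ 3 / X : ℕ) : ℝ) + 1)) * (k + 2) ^ 4
      * ((2 * (C * ((G0 k m * P ^ 2 : ℕ) : ℝ)) * (N ^ ε * Real.sqrt (N / ME))) ^ m
        + (2 * (C * 3 ^ m) * (N ^ ε * Real.sqrt (N / M0))) ^ m
        + (2 * ((2 ^ (8 * m ^ 4) : ℕ) : ℝ) * (N ^ ε * Real.sqrt (N / MP))) ^ m)
    ≤ Real.exp (-(3 * (Real.log N) ^ (1 + 1 / 40 : ℝ)))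

/-- the numbers lemma -/
def NumOK (cond : ℕ → ℕ → ℕ → ℕ → Prop) (G0 : ℕ → ℕ → ℕ) (ε δ D : ℝ) : Prop :=
  ∀ᶠ N : ℝ in atTop, ∃ m c0 C Mi Mo : ℕ, 1 ≤ m ∧ ∀ k, 4 ≤ k → k ≤ 32 * m ^ 5 + 4 →
    ∃ P X ME M0 MP : ℕ, Num cond G0 ε δ D N m c0 C Mi Mo k P X ME M0 MP

/-- existence of generic periods, in the form of the T-step -/
def GenOK (cond : ℕ → ℕ → ℕ → ℕ → Prop) (G0 : ℕ → ℕ → ℕ) : Prop :=
  ∀ k m P X : ℕ, 4 ≤ k → 1 ≤ m → cond k m P X → ∃ (d : Fin k → ℤ) (g : H576.E k → Fin m → ℤ),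
    H576.Gen d g ((P ^ 2 / X / 3 : ℕ) : ℤ) ((P ^ 3 / X : ℕ) : ℤ) ((G0 k m * P ^ 2 : ℕ) : ℤ)

theorem norm_W_le {q : ℝ} (h0 : 0 ≤ q) (h1 : q ≤ 1) (x : List Bool) : ‖W q x‖ ≤ 1 := by
  rw [norm_def]
  exact (W_prob h0 h1 x).2.le

theorem norm_W_pow_le {q : ℝ} (h0 : 0 ≤ q) (h1 : q ≤ 1) (x : List Bool) (n : ℕ) :
    ‖W q x ^ n‖ ≤ 1 := by
  rw [norm_def]
  exact ((W_prob h0 h1 x).pow n).2.le

/-- the context norm is nonincreasing -/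
theorem ctx_mono {q : ℝ} (h0 : 0 ≤ q) (h1 : q ≤ 1) (x : List Bool) (D : Al) {M M' : ℕ}
    (h : M ≤ M') : ‖W q x ^ M' * D * W q x ^ M'‖ ≤ ‖W q x ^ M * D * W q x ^ M‖ := by
  obtain ⟨r, rfl⟩ := Nat.exists_eq_add_of_le h
  have e : W q x ^ (M + r) * D * W q x ^ (M + r)
      = W q x ^ r * (W q x ^ M * D * W q x ^ M) * W q x ^ r := by
    have e1 : W q x ^ (M + r) = W q x ^ r * W q x ^ M := by rw [Nat.add_comm, pow_add]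
    have e2 : W q x ^ (M + r) = W q x ^ M * W q x ^ r := pow_add _ _ _
    calc W q x ^ (M + r) * D * W q x ^ (M + r)
        = (W q x ^ r * W q x ^ M) * D * (W q x ^ M * W q x ^ r) := by rw [← e1, ← e2]
      _ = _ := by simp only [mul_assoc]
  rw [e]
  refine (norm_mul_le _ _).trans ?_
  have k1 := norm_W_pow_le h0 h1 x r
  have k2 : ‖W q x ^ r * (W q x ^ M * D * W q x ^ M)‖ ≤ ‖W q x ^ M * D * W q x ^ M‖ := by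
    refine (norm_mul_le _ _).trans ?_
    exact mul_le_of_le_one_left (norm_nonneg _) k1
  exact (mul_le_of_le_one_right (norm_nonneg _) k1).trans k2

/-- numeric part of `f0` -/
theorem num_f0 {N a E1 Q : ℝ} (hN : 100 ≤ N) (hE1 : 0 < E1) (hQ0 : 0 ≤ Q)
    (hQ : 2 * Q + 1 ≤ N ^ 3) (ha : a ≤ E1 ^ 2) :
    a + 4 * ((2 * Q + 1) * E1) ^ 2 ≤ N ^ 40 * E1 ^ 2 := by
  have hN0 : (0:ℝ) < N := by linarith
  have hN1' : (1:ℝ) ≤ N := by linarith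
  have a2 : (4:ℝ) * ((2 * Q + 1) * E1) ^ 2 ≤ 4 * N ^ 6 * E1 ^ 2 := by
    have : (2 * Q + 1) ^ 2 ≤ (N ^ 3) ^ 2 := by gcongr
    calc (4:ℝ) * ((2 * Q + 1) * E1) ^ 2 = 4 * (2 * Q + 1) ^ 2 * E1 ^ 2 := by ring
      _ ≤ 4 * (N ^ 3) ^ 2 * E1 ^ 2 := by gcongr
      _ = _ := by ring
  have a3 : 1 + 4 * N ^ 6 ≤ N ^ 40 := by
    have b1 : (1:ℝ) ≤ N ^ 6 := one_le_pow₀ hN1'
    calc 1 + 4 * N ^ 6 ≤ 5 * N ^ 6 := by linarith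
      _ ≤ N * N ^ 6 := mul_le_mul_of_nonneg_right (by linarith) (by positivity)
      _ = N ^ 7 := by ring
      _ ≤ N ^ 40 := pow_le_pow_right₀ hN1' (by norm_num)
  calc _ ≤ E1 ^ 2 + 4 * N ^ 6 * E1 ^ 2 := add_le_add ha a2
    _ = (1 + 4 * N ^ 6) * E1 ^ 2 := by ring
    _ ≤ _ := mul_le_mul_of_nonneg_right a3 (by positivity)

/-- numeric part of `f1` -/
theorem num_f1 {N a E1 E2 Q Mi Mo : ℝ} (hN : 100 ≤ N) (hE1 : 0 < E1) (hE2 : 0 < E2)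
    (h12 : E1 ^ 2 ≤ E2) (hQ0 : 0 ≤ Q) (hMi0 : 0 ≤ Mi) (hMo0 : 0 ≤ Mo)
    (hQ : 2 * Q + 1 ≤ N ^ 3) (hMo : Mo ≤ N ^ 3) (hL : (2 * Mi + 1) * (2 * Q + 1) ≤ N ^ 7)
    (ha : a ≤ E1 ^ 2 * E2) :
    a + 2 * ((2 * Mi + 1) * (2 * Q + 1)) ^ 3 * (E1 ^ 2 * (E2 + Mo * (2 * Q + 1) * E1 ^ 2))
      + 4 * ((2 * Mi + 1) * (2 * Q + 1) * E1) ^ 4 ≤ N ^ 40 * (E1 ^ 2 * E2) := by
  have hN0 : (0:ℝ) < N := by linarith
  have hN1' : (1:ℝ) ≤ N := by linarith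
  have a2 : 2 * ((2 * Mi + 1) * (2 * Q + 1)) ^ 3
      * (E1 ^ 2 * (E2 + Mo * (2 * Q + 1) * E1 ^ 2)) ≤ 4 * N ^ 27 * (E1 ^ 2 * E2) := by
    have c1 : Mo * (2 * Q + 1) * E1 ^ 2 ≤ N ^ 6 * E2 := by
      calc Mo * (2 * Q + 1) * E1 ^ 2 ≤ N ^ 3 * N ^ 3 * E2 := by gcongr
        _ = N ^ 6 * E2 := by ring
    have c3 : (1:ℝ) * E2 ≤ N ^ 6 * E2 :=
      mul_le_mul_of_nonneg_right (one_le_pow₀ hN1') hE2.le
    have c2 : E2 + Mo * (2 * Q + 1) * E1 ^ 2 ≤ 2 * N ^ 6 * E2 := by linarith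
    calc 2 * ((2 * Mi + 1) * (2 * Q + 1)) ^ 3
      * (E1 ^ 2 * (E2 + Mo * (2 * Q + 1) * E1 ^ 2))
        ≤ 2 * (N ^ 7) ^ 3 * (E1 ^ 2 * (2 * N ^ 6 * E2)) := by gcongr
      _ = _ := by ring
  have a3 : 4 * ((2 * Mi + 1) * (2 * Q + 1) * E1) ^ 4 ≤ 4 * N ^ 28 * (E1 ^ 2 * E2) := by
    calc 4 * ((2 * Mi + 1) * (2 * Q + 1) * E1) ^ 4 ≤ 4 * (N ^ 7 * E1) ^ 4 := by gcongr
      _ = 4 * N ^ 28 * (E1 ^ 2 * E1 ^ 2) := by ring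
      _ ≤ 4 * N ^ 28 * (E1 ^ 2 * E2) := by gcongr
  have a4 : 1 + 4 * N ^ 27 + 4 * N ^ 28 ≤ N ^ 40 := by
    have b1 : (1:ℝ) ≤ N ^ 27 := one_le_pow₀ hN1'
    have b2 : N ^ 27 ≤ N ^ 28 := pow_le_pow_right₀ hN1' (by norm_num)
    calc 1 + 4 * N ^ 27 + 4 * N ^ 28 ≤ 9 * N ^ 28 := by linarith
      _ ≤ N * N ^ 28 := mul_le_mul_of_nonneg_right (by linarith) (by positivity)
      _ = N ^ 29 := by ring
      _ ≤ N ^ 40 := pow_le_pow_right₀ hN1' (by norm_num)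
  calc _ ≤ E1 ^ 2 * E2 + 4 * N ^ 27 * (E1 ^ 2 * E2) + 4 * N ^ 28 * (E1 ^ 2 * E2) :=
        add_le_add (add_le_add ha a2) a3
    _ = (1 + 4 * N ^ 27 + 4 * N ^ 28) * (E1 ^ 2 * E2) := by ring
    _ ≤ _ := mul_le_mul_of_nonneg_right a4 (by positivity)

/-- numeric part: `L E1 ≤ 1/2` -/
theorem num_LE {N L E1 : ℝ} (hN : 100 ≤ N) (hL : L ≤ N ^ 7) (hE0 : 0 ≤ E1)
    (hE : E1 ≤ (N ^ 10)⁻¹) : L * E1 ≤ 1 / 2 := by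
  have hN0 : (0:ℝ) < N := by linarith
  calc L * E1 ≤ N ^ 7 * (N ^ 10)⁻¹ := by gcongr
    _ = (N ^ 3)⁻¹ := by field_simp
    _ ≤ 1 / 2 := by
      rw [one_div]
      refine inv_anti₀ (by norm_num) ?_
      calc (2:ℝ) ≤ N := by linarith
        _ = N ^ 1 := (pow_one N).symm
        _ ≤ N ^ 3 := pow_le_pow_right₀ (by linarith) (by norm_num)

theorem tstep_of {cond : ℕ → ℕ → ℕ → ℕ → Prop} {G0 : ℕ → ℕ → ℕ} {ε δ D : ℝ}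
    (hε : 0 < ε) (hδ1 : δ ≤ 1) (hcore : TCore) (hgen : GenOK cond G0)
    (hnum : NumOK cond G0 ε δ D) : TStepU ε δ 40 10 := by
  filter_upwards [hnum, ev_St_kap_uni D hε, eventually_ge_atTop 100] with N hN hslip' hN1 q h0 h1
    E1 E2 u v hS h12 h21 hE1 hE2
  have hslip := hslip' q h0 h1
  have hN0 : (0:ℝ) < N := by linarith
  have hN1' : (1:ℝ) ≤ N := by linarith
  obtain ⟨m, c0, C, Mi, Mo, hm, hk⟩ := hN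
  obtain ⟨k, l, w, w', hk4, hkm, hww, hw, hw', hl, hmom⟩ := H505.exists_train m hm
  obtain ⟨P, X, ME, M0, MP, h⟩ := hk k hk4 hkm
  obtain ⟨d, g, hG⟩ := hgen k m P X hk4 hm h.cnd
  have hPR : H576.PR m l w w' (2 ^ (8 * m ^ 4)) := ⟨hmom, hl, hw, hw'⟩
  set F : ℕ := P ^ 2 / X / 3 with hFdef
  set Q : ℕ := P ^ 3 / X with hQdef
  -- the sizes
  have hE2pos : 0 < E2 := lt_of_lt_of_le (Real.exp_pos _) hE2
  have hE1pos : 0 < E1 := lt_of_lt_of_le hE2pos h21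
  have hE1one : E1 ≤ 1 := hE1.trans (Real.rpow_le_one_of_one_le_of_nonpos hN1' (by norm_num))
  have hexp : Real.exp (-(3 * (Real.log N) ^ (1 + 1 / 40 : ℝ))) ≤ E1 ^ 2 * E2 := by
    have e3 : Real.exp (-(3 * (Real.log N) ^ (1 + 1 / 40 : ℝ)))
        = Real.exp (-(Real.log N) ^ (1 + 1 / 40 : ℝ)) ^ 3 := by
      rw [← Real.exp_nat_mul]; congr 1; push_cast; ring
    rw [e3]
    calc Real.exp (-(Real.log N) ^ (1 + 1 / 40 : ℝ)) ^ 3 ≤ E2 ^ 3 := by gcongr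
      _ = E2 ^ 2 * E2 := by ring
      _ ≤ E1 ^ 2 * E2 := by gcongr
  have hexp' : Real.exp (-(3 * (Real.log N) ^ (1 + 1 / 40 : ℝ))) ≤ E1 ^ 2 := by
    refine hexp.trans ?_
    refine mul_le_of_le_one_right (by positivity) (h21.trans hE1one)
  -- real sizes of `n`, `L`
  have hC1 : 1 ≤ C := by have := h.hC1; omega
  have hQn : ((2 * Q + 1 : ℕ) : ℝ) ≤ N ^ (3 : ℝ) := by
    have a : ((2 * Q + 1 : ℕ) : ℝ) ≤ ((C * (2 * Q + 1) : ℕ) : ℝ) := by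
      exact_mod_cast Nat.le_mul_of_pos_left _ hC1
    refine a.trans (h.nhi.trans ?_)
    exact Real.rpow_le_rpow_of_exponent_le hN1' (by linarith)
  have hMn : ((Mi + Mo : ℕ) : ℝ) ≤ N ^ (3 : ℝ) :=
    h.mihi.trans (Real.rpow_le_rpow_of_exponent_le hN1' (by linarith))
  have hN3 : N ^ (3 : ℝ) = N ^ 3 := by
    rw [← Real.rpow_natCast]; norm_num
  rw [hN3] at hQn hMn
  have hMi : ((2 * Mi + 1 : ℕ) : ℝ) ≤ N ^ 4 := by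
    have a : ((2 * Mi + 1 : ℕ) : ℝ) ≤ 3 * ((Mi + Mo : ℕ) : ℝ) := by
      have := h.mi
      have b : 2 * Mi + 1 ≤ 3 * (Mi + Mo) := by omega
      exact_mod_cast b
    calc ((2 * Mi + 1 : ℕ) : ℝ) ≤ 3 * N ^ 3 := a.trans (by linarith)
      _ ≤ N * N ^ 3 := by
        refine mul_le_mul_of_nonneg_right (by linarith) (by positivity)
      _ = N ^ 4 := by ring
  have hL : (((2 * Mi + 1) * (2 * Q + 1) : ℕ) : ℝ) ≤ N ^ 7 := by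
    push_cast at hMi hQn ⊢
    calc (2 * (Mi : ℝ) + 1) * (2 * (Q : ℝ) + 1) ≤ N ^ 4 * N ^ 3 := by gcongr
      _ = N ^ 7 := by ring
  have hMo : (Mo : ℝ) ≤ N ^ 3 := by
    refine le_trans ?_ hMn
    push_cast
    have : (0:ℝ) ≤ Mi := by positivity
    linarith
  have hE1N : E1 ≤ (N ^ 10)⁻¹ := by
    refine hE1.trans (le_of_eq ?_)
    rw [Real.rpow_neg hN0.le]
    congr 1
    rw [← Real.rpow_natCast]; norm_num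
  have hLE : (((2 * Mi + 1) * (2 * Q + 1) : ℕ) : ℝ) * E1 ≤ 1 / 2 :=
    num_LE hN1 hL hE1pos.le hE1N
  -- the core
  obtain ⟨x, x', hne, hlen, hlenx, hnear, hf0, hf1⟩ := hcore q h0 h1 u v hS.ne hS.len k m d g F Q
    (G0 k m * P ^ 2) l w w' (2 ^ (8 * m ^ 4)) hG hPR hww c0 C Mi Mo h.hC1 h.hC2 h.mi h.mo E1 E2
    (N ^ ε * Real.sqrt (N / ME)) (N ^ ε * Real.sqrt (N / M0)) (N ^ ε * Real.sqrt (N / MP)) ME M0 MP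
    (hS.e1 c0 h.c0lo) (hS.e2 _ h.CFlo) hLE h.gE h.g0 h.gP
    (hslip E1 E2 u v hS ME h.ME1 h.MED) (hslip E1 E2 u v hS M0 h.M01 h.M0D)
    (hslip E1 E2 u v hS MP h.MP1 h.MPD)
  have hN40 : N ^ (40 : ℝ) = N ^ 40 := by
    rw [← Real.rpow_natCast]; norm_num
  push_cast at hQn hL
  refine ⟨C * (2 * Q + 1), x, x', hne, hlen, hlenx, h.nlo, h.nhi, ?_, ?_, ?_⟩
  · refine hnear.trans ?_
    rw [hN40]
    refine mul_le_mul_of_nonneg_right ?_ hE1pos.le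
    exact hQn.trans (pow_le_pow_right₀ hN1' (by norm_num))
  · refine hf0.trans ?_
    rw [hN40]
    exact num_f0 hN1 hE1pos (Nat.cast_nonneg Q) hQn (h.kill0.trans hexp')
  · intro M hM
    have hMM : Mi + Mo ≤ M := by
      have := h.mihi.trans hM
      exact_mod_cast this
    refine (ctx_mono h0 h1 x _ hMM).trans (hf1.trans ?_)
    rw [hN40]
    exact num_f1 hN1 hE1pos hE2pos h12 (Nat.cast_nonneg Q) (Nat.cast_nonneg Mi)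
      (Nat.cast_nonneg Mo) hQn hMo hL (h.kill.trans hexp)

end Vale.Agent.P321.LB2
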