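import Vale.Agent.P321.H535.CoarseDefs

/-!
LB2, T-step, coarse pairs: common reduction and the FAR part (helper535).
-/

namespace Vale.Agent.P321.H535

open Finset H576

section basics

variable {k m : ℕ} {d : Fin k → ℤ} {g : E k → Fin m → ℤ} {F Q G : ℤ}

theorem val_nonneg (b : Bool) : 0 ≤ H576.val b := by cases b <;> simp [H576.val]
theorem val_le_one (b : Bool) : H576.val b ≤ 1 := by cases b <;> simp [H576.val]
theorem val_inj {a b : Bool} (h : H576.val a = H576.val b) : a = b := by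
  cases a <;> cases b <;> simp_all [H576.val]
theorem val_sub_abs (a b : Bool) : |H576.val a - H576.val b| ≤ 1 := by cases a <;> cases b <;> simp [H576.val]

theorem Z_sub (n n' : Fin m → Bool) : T0 (fun b => H576.val (n b) - H576.val (n' b)) = Z n - Z n' := by
  simp only [T0, Z, sub_mul, Finset.sum_sub_distrib]

theorem S_sub (n n' : E k → Fin m → Bool) :
    Ts g (fun e b => H576.val (n e b) - H576.val (n' e b)) = S g n - S g n' := by
  simp only [Ts, Te, S, sub_mul, Finset.sum_sub_distrib]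

/-- every direction misses some train -/
theorem exists_not_mem (hk : 3 ≤ k) (e : E k) : ∃ i, i ∉ e.1 := by
  by_contra h
  push Not at h
  have h1 : e.1 = univ := Finset.eq_univ_iff_forall.2 h
  have h2 := e.2
  rw [h1, Finset.card_univ, Fintype.card_fin] at h2
  omega

/-- the top positions are distinct -/
theorem top_inj (hG : Gen d g F Q G) {n0 n0' : Fin m → Bool} {n n' : E k → Fin m → Bool}
    (h : Z n0 + S g n = Z n0' + S g n') : n0 = n0' ∧ n = n' := by
  have h0 : T0 (fun b => H576.val (n0 b) - H576.val (n0' b)) + Ts g (fun e b => H576.val (n e b) - H576.val (n' e b))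
      = 0 := by
    rw [Z_sub, S_sub]; linarith
  have key : ∀ i, (∀ b, H576.val (n0 b) - H576.val (n0' b) = 0) ∧
      ∀ e : E k, i ∉ e.1 → ∀ b, H576.val (n e b) - H576.val (n' e b) = 0 := by
    intro i
    refine hG.gen1 i _ _ (fun b => ?_) (fun e b => val_sub_abs _ _) (by rw [h0]; exact dvd_zero _)
    have := val_sub_abs (n0 b) (n0' b)
    linarith
  have hk := hG.k3
  constructor
  · funext b
    have := (key ⟨0, by omega⟩).1 b
    exact val_inj (by linarith)
  · funext e b
    obtain ⟨i, hi⟩ := exists_not_mem hk e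
    have := (key i).2 e hi b
    exact val_inj (by linarith)

theorem Z_nonneg (n0 : Fin m → Bool) : 0 ≤ Z n0 := by
  unfold Z T0
  exact Finset.sum_nonneg fun b _ => mul_nonneg (val_nonneg _) (by positivity)

theorem sum_three (m : ℕ) : ∑ b : Fin m, (3 : ℤ) ^ (b : ℕ) ≤ 3 ^ m := by
  have h : ∀ m : ℕ, 2 * ∑ b : Fin m, (3 : ℤ) ^ (b : ℕ) + 1 = 3 ^ m := by
    intro m
    induction m with
    | zero => simp
    | succ m ih =>
      rw [Fin.sum_univ_castSucc]
      simp only [Fin.val_castSucc, Fin.val_last]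
      rw [pow_succ]
      linarith
  have h1 := h m
  have h2 : (0 : ℤ) ≤ ∑ b : Fin m, (3 : ℤ) ^ (b : ℕ) := Finset.sum_nonneg fun _ _ => by positivity
  linarith

theorem Z_le (n0 : Fin m → Bool) : Z n0 ≤ 3 ^ m := by
  refine le_trans ?_ (sum_three m)
  unfold Z T0
  refine Finset.sum_le_sum fun b _ => ?_
  have h3 : (0 : ℤ) ≤ 3 ^ (b : ℕ) := by positivity
  nlinarith [val_le_one (n0 b), val_nonneg (n0 b)]

theorem card_E (k : ℕ) : Fintype.card (E k) ≤ k ^ 2 := by
  have h : Fintype.card (E k) = k.choose 2 := by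
    rw [Fintype.card_subtype]
    have : (Finset.univ.filter fun e : Finset (Fin k) => e.card = 2) = Finset.powersetCard 2 univ := by
      ext e; simp [Finset.mem_powersetCard]
    rw [this, Finset.card_powersetCard, Finset.card_univ, Fintype.card_fin]
  rw [h]
  exact Nat.choose_le_pow k 2

theorem S_nonneg (hG : Gen d g F Q G) (n : E k → Fin m → Bool) : 0 ≤ S g n := by
  unfold S Ts Te
  exact Finset.sum_nonneg fun e _ => Finset.sum_nonneg fun b _ =>
    mul_nonneg (val_nonneg _) (hG.g0 e b)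

theorem G_nonneg (hG : Gen d g F Q G) : 0 ≤ G := by
  have hk := hG.k3
  have hm := hG.m1
  have h0 : (0 : ℕ) < k := by omega
  have h1 : (1 : ℕ) < k := by omega
  have hm0 : (0 : ℕ) < m := by omega
  have hc : ({⟨0, h0⟩, ⟨1, h1⟩} : Finset (Fin k)).card = 2 :=
    Finset.card_pair (by intro h; rw [Fin.mk.injEq] at h; omega)
  exact le_trans (hG.g0 ⟨_, hc⟩ ⟨0, hm0⟩) (hG.gG ⟨_, hc⟩ ⟨0, hm0⟩)

theorem S_le (hG : Gen d g F Q G) (n : E k → Fin m → Bool) : 16 * S g n ≤ Q := by
  have hG0 := G_nonneg hG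
  have h1 : S g n ≤ ∑ e : E k, ∑ b : Fin m, G := by
    unfold S Ts Te
    refine Finset.sum_le_sum fun e _ => Finset.sum_le_sum fun b _ => ?_
    have h2 := hG.g0 e b
    have h3 := hG.gG e b
    nlinarith [val_le_one (n e b), val_nonneg (n e b)]
  rw [Finset.sum_const, Finset.sum_const, Finset.card_univ, Finset.card_univ, Fintype.card_fin,
    nsmul_eq_mul, nsmul_eq_mul] at h1
  have h4 : ((Fintype.card (E k) : ℕ) : ℤ) * ((m : ℤ) * G) ≤ k ^ 2 * m * G := by
    have h5 : ((Fintype.card (E k) : ℕ) : ℤ) ≤ k ^ 2 := by exact_mod_cast card_E k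
    have h6 : (0 : ℤ) ≤ (m : ℤ) * G := by positivity
    calc ((Fintype.card (E k) : ℕ) : ℤ) * ((m : ℤ) * G) ≤ (k ^ 2 : ℤ) * ((m : ℤ) * G) :=
          mul_le_mul_of_nonneg_right h5 h6
      _ = _ := by ring
  have h7 := hG.GQ
  linarith

theorem F_pos (hG : Gen d g F Q G) : 3 ≤ F := by
  have h1 := hG.F3
  have hm := hG.m1
  have h2 : (3 : ℤ) ^ 1 ≤ 3 ^ m := pow_le_pow_right₀ (by norm_num) hm
  linarith

theorem Q_ge (hG : Gen d g F Q G) : 48 ≤ Q := by
  have := F_pos hG
  have := hG.FQ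
  linarith

theorem Z_le' (hG : Gen d g F Q G) (n0 : Fin m → Bool) : Z n0 ≤ F := (Z_le n0).trans hG.F3

theorem sg_cases {ι : Type*} [Fintype ι] (n : ι → Bool) : sg n = 1 ∨ sg n = -1 := by
  unfold sg
  classical
  refine Finset.prod_induction _ (fun x : ℝ => x = 1 ∨ x = -1) ?_ (Or.inl rfl) ?_
  · rintro a b (rfl | rfl) (rfl | rfl) <;> simp
  · intro b _
    split_ifs <;> simp

theorem sgE_cases (n : E k → Fin m → Bool) : sgE n = 1 ∨ sgE n = -1 := by
  unfold sgE
  classical
  refine Finset.prod_induction _ (fun x : ℝ => x = 1 ∨ x = -1) ?_ (Or.inl rfl) ?_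
  · rintro a b (rfl | rfl) (rfl | rfl) <;> simp
  · intro e _
    exact sg_cases _

theorem sgn_cases (n0 : Fin m → Bool) (n : E k → Fin m → Bool) :
    sg n0 * sgE n = 1 ∨ sg n0 * sgE n = -1 := by
  rcases sg_cases n0 with h | h <;> rcases sgE_cases n with h' | h' <;> rw [h, h'] <;> simp

end basics

section split

theorem psum_le {V : Type} [AddCommGroup V] [Module ℝ V] {ι : Type*} (p : Seminorm ℝ V)
    (s : Finset ι) (f : ι → V) : p (∑ i ∈ s, f i) ≤ ∑ i ∈ s, p (f i) := by
  classical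
  induction s using Finset.induction_on with
  | empty => simp
  | insert a s ha ih =>
    rw [Finset.sum_insert ha, Finset.sum_insert ha]
    exact (map_add_le_add p _ _).trans (by linarith)

variable {V : Type} [AddCommGroup V] [Module ℝ V]

/-- the D/mean term of an ordered pair of cells -/
noncomputable def hts (B : Finset ℤ → V) (C : ℤ) (lp lm : ℤ → ℕ) (t s : ℤ) : V :=
  (1 / 2 : ℝ) • ((B {C * t + lm t, C * s + lp s} - B {C * t + lp t, C * s + lp s})
    + (B {C * t + lm t, C * s + lm s} - B {C * t + lp t, C * s + lm s}))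

theorem Dl_pair (B : Finset ℤ → V) (C : ℤ) (lp lm : ℤ → ℕ) (s t : ℤ) :
    Dl B C lp lm {s, t} = hts B C lp lm t s + hts B C lp lm s t := by
  unfold Dl hts pos
  rw [Finset.image_insert, Finset.image_singleton, Finset.image_insert, Finset.image_singleton]
  rw [Finset.pair_comm (C * s + (lp s : ℤ)) (C * t + (lp t : ℤ)),
    Finset.pair_comm (C * s + (lm s : ℤ)) (C * t + (lm t : ℤ)),
    Finset.pair_comm (C * s + (lm s : ℤ)) (C * t + (lp t : ℤ)),
    Finset.pair_comm (C * s + (lp s : ℤ)) (C * t + (lm t : ℤ))]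
  set a := B {C * t + (lm t : ℤ), C * s + (lm s : ℤ)}
  set b := B {C * t + (lp t : ℤ), C * s + (lp s : ℤ)}
  set c := B {C * t + (lm t : ℤ), C * s + (lp s : ℤ)}
  set e := B {C * t + (lp t : ℤ), C * s + (lm s : ℤ)}
  rw [← smul_add]
  have : c - b + (a - e) + (e - b + (a - c)) = (2 : ℝ) • (a - b) := by
    rw [two_smul]; abel
  rw [this, smul_smul]
  norm_num

/-- the set of ordered coarse pairs -/
noncomputable def CP (F L1 L2 : ℤ) : Finset (ℤ × ℤ) :=
  ((Icc (-L1) L2) ×ˢ (Icc (-L1) L2)).filter fun x => 2 * F < |x.2 - x.1|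

theorem fine_pair_iff (F s t : ℤ) (hF : 0 ≤ F) : Fine F {s, t} ↔ |s - t| ≤ 2 * F := by
  unfold Fine
  constructor
  · intro h
    exact h s (by simp) t (by simp)
  · intro h a ha b hb
    simp only [Finset.mem_insert, Finset.mem_singleton] at ha hb
    rcases ha with rfl | rfl <;> rcases hb with rfl | rfl
    · simp; linarith
    · exact h
    · rw [abs_sub_comm]; exact h
    · simp; linarith

/-- reduction to ordered pairs -/
theorem split_ordered (B : Finset ℤ → V) (C : ℤ) (lp lm : ℤ → ℕ) (F L1 L2 : ℤ) (hF : 0 ≤ F) :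
    ∑ A ∈ (Icc (-L1) L2).powerset with A.card = 2 ∧ ¬ Fine F A, Dl B C lp lm A
      = ∑ x ∈ CP F L1 L2, hts B C lp lm x.1 x.2 := by
  classical
  rw [← Finset.sum_fiberwise_of_maps_to (s := CP F L1 L2)
    (t := (Icc (-L1) L2).powerset.filter fun A => A.card = 2 ∧ ¬ Fine F A)
    (g := fun x => ({x.1, x.2} : Finset ℤ))]
  · refine Finset.sum_congr rfl fun A hA => ?_
    rw [Finset.mem_filter, Finset.mem_powerset] at hA
    obtain ⟨hsub, hcard, hfine⟩ := hA
    obtain ⟨s, t, hst, rfl⟩ := Finset.card_eq_two.1 hcard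
    rw [fine_pair_iff F s t hF, not_le] at hfine
    have hs : s ∈ Icc (-L1) L2 := hsub (by simp)
    have ht : t ∈ Icc (-L1) L2 := hsub (by simp)
    have hfib : (CP F L1 L2).filter (fun x => ({x.1, x.2} : Finset ℤ) = {s, t})
        = {(t, s), (s, t)} := by
      ext ⟨a, b⟩
      simp only [CP, Finset.mem_filter, Finset.mem_product, Finset.mem_insert,
        Finset.mem_singleton, Prod.mk.injEq]
      constructor
      · rintro ⟨_, h⟩
        have ha : a ∈ ({s, t} : Finset ℤ) := by rw [← h]; simp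
        have hb : b ∈ ({s, t} : Finset ℤ) := by rw [← h]; simp
        have hs' : s ∈ ({a, b} : Finset ℤ) := by rw [h]; simp
        have ht' : t ∈ ({a, b} : Finset ℤ) := by rw [h]; simp
        simp only [Finset.mem_insert, Finset.mem_singleton] at ha hb hs' ht'
        rcases ha with rfl | rfl
        · right
          refine ⟨rfl, ?_⟩
          rcases ht' with h' | h'
          · exact absurd h'.symm hst
          · exact h'.symm
        · left
          refine ⟨rfl, ?_⟩
          rcases hs' with h' | h'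
          · exact absurd h' hst
          · exact h'.symm
      · rintro (⟨rfl, rfl⟩ | ⟨rfl, rfl⟩)
        · exact ⟨⟨⟨ht, hs⟩, hfine⟩, Finset.pair_comm _ _⟩
        · refine ⟨⟨⟨hs, ht⟩, ?_⟩, rfl⟩
          rw [abs_sub_comm]; exact hfine
    rw [hfib, Finset.sum_pair (by intro h; exact hst (Prod.mk.inj h).2), Dl_pair]
  · intro x hx
    rw [CP, Finset.mem_filter, Finset.mem_product] at hx
    rw [Finset.mem_filter, Finset.mem_powerset]
    have hne : x.1 ≠ x.2 := by
      intro h
      rw [h, sub_self, abs_zero] at hx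
      linarith [hx.2]
    refine ⟨?_, Finset.card_pair hne, ?_⟩
    · intro a ha
      simp only [Finset.mem_insert, Finset.mem_singleton] at ha
      rcases ha with rfl | rfl
      · exact hx.1.1
      · exact hx.1.2
    · rw [fine_pair_iff F _ _ hF, not_le, abs_sub_comm]
      exact hx.2

variable {k m : ℕ} {d : Fin k → ℤ} {g : E k → Fin m → ℤ} {F Q G C L1 L2 : ℤ}
  {l : Finset (Fin k) → ℕ} {w w' Lb : ℕ} {lp lm : ℤ → ℕ}

theorem hts_top (B : Finset ℤ → V) (hL : Lab d g Q l w w' Lb lp lm) (n0 : Fin m → Bool)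
    (n : E k → Fin m → Bool) (s : ℤ) :
    hts B C lp lm (Z n0 + S g n) s = Gs B C g w w' lp lm n0 n s := by
  unfold hts Gs Dt
  rcases sgn_cases n0 n with h | h
  · obtain ⟨h1, h2⟩ := hL.top1 n0 n h
    rw [h1, h2, h, one_smul]
  · obtain ⟨h1, h2⟩ := hL.top2 n0 n h
    rw [h1, h2, h, neg_one_smul, ← smul_neg]
    congr 1
    abel

theorem hts_not_top (B : Finset ℤ → V) (hL : Lab d g Q l w w' Lb lp lm) {t : ℤ}
    (ht : ¬ Top g t) (s : ℤ) : hts B C lp lm t s = 0 := by
  unfold hts
  rw [hL.eq t ht]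
  simp

/-- **reduction**: coarse pairs = sum over the tops and the far cells -/
theorem coarse_split (B : Finset ℤ → V) (hG : Gen d g F Q G) (hL : Lab d g Q l w w' Lb lp lm)
    (h1 : Q ≤ L1) (h2 : Q ≤ L2) :
    ∑ A ∈ (Icc (-L1) L2).powerset with A.card = 2 ∧ ¬ Fine F A, Dl B C lp lm A
      = ∑ n : E k → Fin m → Bool, ∑ n0 : Fin m → Bool,
        ∑ s ∈ (Icc (-L1) L2).filter (fun s => 2 * F < |s - (Z n0 + S g n)|),
          Gs B C g w w' lp lm n0 n s := by
  classical
  have hF := F_pos hG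
  rw [split_ordered B C lp lm F L1 L2 (by linarith)]
  rw [Finset.sum_comm]
  have e1 : ∑ n0 : Fin m → Bool, ∑ n : E k → Fin m → Bool,
        ∑ s ∈ (Icc (-L1) L2).filter (fun s => 2 * F < |s - (Z n0 + S g n)|),
          Gs B C g w w' lp lm n0 n s
      = ∑ y : (Fin m → Bool) × (E k → Fin m → Bool),
        ∑ s ∈ (Icc (-L1) L2).filter (fun s => 2 * F < |s - (Z y.1 + S g y.2)|),
          Gs B C g w w' lp lm y.1 y.2 s := by
    rw [Fintype.sum_prod_type]
  rw [e1]
  set tops : Finset ℤ := (univ : Finset ((Fin m → Bool) × (E k → Fin m → Bool))).image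
    (fun y => Z y.1 + S g y.2) with htops
  have hin : ∀ y : (Fin m → Bool) × (E k → Fin m → Bool), Z y.1 + S g y.2 ∈ Icc (-L1) L2 := by
    intro y
    have a1 := Z_nonneg y.1
    have a2 := Z_le' hG y.1
    have a3 := S_nonneg hG y.2
    have a4 := S_le hG y.2
    have a5 := hG.FQ
    rw [Finset.mem_Icc]
    constructor <;> linarith
  have e2 : ∑ x ∈ CP F L1 L2, hts B C lp lm x.1 x.2
      = ∑ x ∈ (CP F L1 L2).filter (fun x => x.1 ∈ tops), hts B C lp lm x.1 x.2 := by
    rw [Finset.sum_filter]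
    refine Finset.sum_congr rfl fun x _ => ?_
    split_ifs with h
    · rfl
    · refine hts_not_top B hL ?_ _
      rintro ⟨n0, n, hn⟩
      exact h (by rw [htops, Finset.mem_image]; exact ⟨(n0, n), Finset.mem_univ _, hn.symm⟩)
  have e3 : (CP F L1 L2).filter (fun x => x.1 ∈ tops)
      = (tops ×ˢ Icc (-L1) L2).filter (fun x => 2 * F < |x.2 - x.1|) := by
    ext x
    simp only [CP, Finset.mem_filter, Finset.mem_product]
    constructor
    · rintro ⟨⟨⟨_, b⟩, c⟩, d⟩
      exact ⟨⟨d, b⟩, c⟩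
    · rintro ⟨⟨d, b⟩, c⟩
      refine ⟨⟨⟨?_, b⟩, c⟩, d⟩
      rw [htops, Finset.mem_image] at d
      obtain ⟨y, _, hy⟩ := d
      rw [← hy]
      exact hin y
  rw [e2, e3, Finset.sum_filter, Finset.sum_product, htops, Finset.sum_image]
  · refine Finset.sum_congr rfl fun y _ => ?_
    rw [Finset.sum_filter]
    refine Finset.sum_congr rfl fun s _ => ?_
    split_ifs
    · exact hts_top B hL _ _ _
    · rfl
  · intro y _ y' _ h
    obtain ⟨a, b⟩ := top_inj hG h
    exact Prod.ext a b

end split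

section far

variable {V : Type} [AddCommGroup V] [Module ℝ V]
variable {k m : ℕ} {d : Fin k → ℤ} {g : E k → Fin m → ℤ} {F Q G C L1 L2 : ℤ}
  {l : Finset (Fin k) → ℕ} {w w' Lb : ℕ} {lp lm : ℤ → ℕ}

/-- the FAR part -/
theorem far_bound (p : Seminorm ℝ V) (B : Finset ℤ → V) (hG : Gen d g F Q G)
    (hL : Lab d g Q l w w' Lb lp lm) (hw : w ≤ Lb) (hw' : w' ≤ Lb) (hC : 4 * (Lb : ℤ) ≤ C)
    (hC1 : 1 ≤ C) {κ0 : ℝ} (hK : Kill0 p B m C Q κ0) :
    p (∑ n : E k → Fin m → Bool, ∑ n0 : Fin m → Bool,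
        ∑ s ∈ (Icc (-L1) L2).filter (fun s => Q < 2 * |s - S g n|),
          Gs B C g w w' lp lm n0 n s)
      ≤ 2 ^ (k ^ 2 * m) * (((Icc (-L1) L2).card : ℕ) : ℝ) * (2 * κ0) := by
  classical
  have hκ : 0 ≤ κ0 := by
    have h := hK 0 (C * Q) (by simp; have := Q_ge hG; positivity) (by
      have : 0 ≤ C * Q := mul_nonneg (by linarith) (by linarith [Q_ge hG])
      rw [zero_sub, abs_neg, abs_of_nonneg this]; linarith)
    exact le_trans (apply_nonneg p _) h
  have hQ := Q_ge hG
  -- one pair `(n, s)`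
  have key : ∀ (n : E k → Fin m → Bool) (s : ℤ), Q < 2 * |s - S g n| →
      p (∑ n0 : Fin m → Bool, Gs B C g w w' lp lm n0 n s) ≤ 2 * κ0 := by
    intro n s hs
    have hS0 := S_nonneg hG n
    have hS1 := S_le hG n
    have kill : ∀ (a b : ℕ), a ≤ Lb → b ≤ Lb →
        p (∑ n0 : Fin m → Bool, sg n0 • B {C * (Z n0 + S g n) + a, C * s + b}) ≤ κ0 := by
      intro a b ha hb
      have ha' : (a : ℤ) ≤ Lb := by exact_mod_cast ha
      have hb' : (b : ℤ) ≤ Lb := by exact_mod_cast hb
      have ha0 : (0 : ℤ) ≤ a := by positivity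
      have hb0 : (0 : ℤ) ≤ b := by positivity
      have h := hK (C * S g n + a) (C * s + b) ?_ ?_
      · refine le_trans (le_of_eq ?_) h
        congr 1
        refine Finset.sum_congr rfl fun n0 _ => ?_
        have : C * (Z n0 + S g n) + (a : ℤ) = C * S g n + a + C * Z n0 := by ring
        rw [this]
      · rw [abs_of_nonneg (by positivity)]
        nlinarith
      · have e : C * S g n + (a : ℤ) - (C * s + b) = C * (S g n - s) + (a - b) := by ring
        rw [e]
        have h1 : |C * (S g n - s)| ≤ |C * (S g n - s) + (a - b)| + |(a : ℤ) - b| := by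
          have := abs_sub (C * (S g n - s) + ((a : ℤ) - b)) ((a : ℤ) - b)
          simpa using this
        have h2 : |(a : ℤ) - b| ≤ Lb := by
          rw [abs_le]; constructor <;> linarith
        have h3 : |C * (S g n - s)| = C * |s - S g n| := by
          rw [abs_mul, abs_of_nonneg (by linarith : (0 : ℤ) ≤ C), abs_sub_comm]
        nlinarith
    have e : ∑ n0 : Fin m → Bool, Gs B C g w w' lp lm n0 n s
        = (sgE n * (1 / 2 : ℝ)) •
          ((∑ n0 : Fin m → Bool, sg n0 • B {C * (Z n0 + S g n) + w', C * s + lp s})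
          - (∑ n0 : Fin m → Bool, sg n0 • B {C * (Z n0 + S g n) + w, C * s + lp s})
          + ((∑ n0 : Fin m → Bool, sg n0 • B {C * (Z n0 + S g n) + w', C * s + lm s})
          - (∑ n0 : Fin m → Bool, sg n0 • B {C * (Z n0 + S g n) + w, C * s + lm s}))) := by
      rw [← Finset.sum_sub_distrib, ← Finset.sum_sub_distrib, ← Finset.sum_add_distrib,
        Finset.smul_sum]
      refine Finset.sum_congr rfl fun n0 _ => ?_
      unfold Gs Dt
      rw [smul_smul, ← smul_sub, ← smul_sub, ← smul_add, smul_smul]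
      congr 1
      ring
    rw [e, map_smul_eq_mul]
    have hn : ‖sgE n * (1 / 2 : ℝ)‖ = 1 / 2 := by
      rcases sgE_cases n with h | h <;> rw [h] <;> norm_num
    rw [hn]
    have k1 := kill w' (lp s) hw' (hL.lb s).1
    have k2 := kill w (lp s) hw (hL.lb s).1
    have k3 := kill w' (lm s) hw' (hL.lb s).2
    have k4 := kill w (lm s) hw (hL.lb s).2
    set x1 := ∑ n0 : Fin m → Bool, sg n0 • B {C * (Z n0 + S g n) + w', C * s + lp s}
    set x2 := ∑ n0 : Fin m → Bool, sg n0 • B {C * (Z n0 + S g n) + w, C * s + lp s}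
    set x3 := ∑ n0 : Fin m → Bool, sg n0 • B {C * (Z n0 + S g n) + w', C * s + lm s}
    set x4 := ∑ n0 : Fin m → Bool, sg n0 • B {C * (Z n0 + S g n) + w, C * s + lm s}
    have t1 : p (x1 - x2 + (x3 - x4)) ≤ p x1 + p x2 + (p x3 + p x4) := by
      refine (map_add_le_add p _ _).trans ?_
      exact add_le_add (map_sub_le_add p _ _) (map_sub_le_add p _ _)
    linarith
  -- exchange the sums
  have e1 : ∀ n : E k → Fin m → Bool, ∑ n0 : Fin m → Bool,
        ∑ s ∈ (Icc (-L1) L2).filter (fun s => Q < 2 * |s - S g n|),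
          Gs B C g w w' lp lm n0 n s
      = ∑ s ∈ (Icc (-L1) L2).filter (fun s => Q < 2 * |s - S g n|),
        ∑ n0 : Fin m → Bool, Gs B C g w w' lp lm n0 n s := fun n => Finset.sum_comm
  have e2 : ∀ n : E k → Fin m → Bool, p (∑ n0 : Fin m → Bool,
        ∑ s ∈ (Icc (-L1) L2).filter (fun s => Q < 2 * |s - S g n|),
          Gs B C g w w' lp lm n0 n s) ≤ (((Icc (-L1) L2).card : ℕ) : ℝ) * (2 * κ0) := by
    intro n
    rw [e1 n]
    refine (psum_le p _ _).trans ?_
    refine (Finset.sum_le_sum fun s hs => key n s (Finset.mem_filter.1 hs).2).trans ?_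
    rw [Finset.sum_const, nsmul_eq_mul]
    refine mul_le_mul_of_nonneg_right ?_ (by positivity)
    exact_mod_cast Finset.card_filter_le _ _
  refine (psum_le p _ _).trans ?_
  refine (Finset.sum_le_sum fun n _ => e2 n).trans ?_
  rw [Finset.sum_const, nsmul_eq_mul, ← mul_assoc]
  refine mul_le_mul_of_nonneg_right (mul_le_mul_of_nonneg_right ?_ (by positivity)) (by positivity)
  rw [Finset.card_univ, Fintype.card_fun, Fintype.card_fun, Fintype.card_bool, Fintype.card_fin,
    ← pow_mul]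
  push_cast
  refine pow_le_pow_right₀ (by norm_num) ?_
  calc m * Fintype.card (E k) ≤ m * k ^ 2 := Nat.mul_le_mul_left _ (card_E k)
    _ = k ^ 2 * m := by ring

end far

end Vale.Agent.P321.H535
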