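import Vale.Agent.P321.H576.TSpec

/-!
LB2, T-step, coarse pairs: the summand after the D/mean decomposition (helper535, for helper834).
-/

namespace Vale.Agent.P321.H535

open Finset H576

variable {V : Type} [AddCommGroup V] [Module ℝ V]

/-- difference of the two labels at the top `t`, the other `v` at the position `y` -/
noncomputable def Dt (B : Finset ℤ → V) (C : ℤ) (w w' : ℕ) (t y : ℤ) : V :=
  B {C * t + w', y} - B {C * t + w, y}

/-- `D` at the top `T(n)`, mean content at the cell `s` -/
noncomputable def Gs (B : Finset ℤ → V) (C : ℤ) {k m : ℕ} (g : E k → Fin m → ℤ) (w w' : ℕ)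
    (lp lm : ℤ → ℕ) (n0 : Fin m → Bool) (n : E k → Fin m → Bool) (s : ℤ) : V :=
  (sg n0 * sgE n) • ((1 / 2 : ℝ) • (Dt B C w w' (Z n0 + S g n) (C * s + lp s)
    + Dt B C w w' (Z n0 + S g n) (C * s + lm s)))

end Vale.Agent.P321.H535
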