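import Mathlib

/-!
Vanishing moments of digit sums: for `n ∈ {0,1}^m` with sign `(-1)^|n|`, all the moments of order
`< m` of `c + ∑ n_b σ_b` vanish.
-/

namespace Vale.Agent.P321.H535

open Finset Polynomial

/-- sign of a digit vector -/
def sgn {m : ℕ} (n : Fin m → Bool) : ℤ := ∏ b, (if n b then (-1 : ℤ) else 1)

/-- weighted digit sum -/
def dsum {m : ℕ} (σ : Fin m → ℤ) (n : Fin m → Bool) : ℤ := ∑ b, (if n b then σ b else 0)

theorem sgn_abs {m : ℕ} (n : Fin m → Bool) : |sgn n| = 1 := by
  unfold sgn
  rw [Finset.abs_prod]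
  refine Finset.prod_eq_one fun b _ => ?_
  split_ifs <;> simp

theorem sgn_sq {m : ℕ} (n : Fin m → Bool) : sgn n * sgn n = 1 := by
  rw [← abs_mul_abs_self, sgn_abs]; norm_num

theorem digit_poly (m : ℕ) (σ : Fin m → ℤ) (p : ℤ[X]) (hp : p.degree < m) (c : ℤ) :
    ∑ n : Fin m → Bool, sgn n * p.eval (c + dsum σ n) = 0 := by
  induction m generalizing p c with
  | zero =>
    have : p = 0 := by
      rw [← Polynomial.degree_eq_bot]
      by_contra h
      have := Polynomial.zero_le_degree_iff.2 (by rintro rfl; simp at h : p ≠ 0)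
      exact absurd hp (not_lt.2 (by simpa using this))
    simp [this]
  | succ m ih =>
    set q : ℤ[X] := p - p.comp (X + C (σ 0)) with hq
    have hq' : q.degree < m := by
      by_cases h0 : p = 0
      · rw [hq, h0]; simp
      by_cases h1 : p.natDegree = 0
      · rw [Polynomial.eq_C_of_natDegree_eq_zero h1] at hq
        rw [hq]; simp
      have e : p.comp (X + C (σ 0)) = Polynomial.taylor (σ 0) p := by
        rw [Polynomial.taylor_apply]
      have h2 : (p - Polynomial.taylor (σ 0) p).degree < p.degree := by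
        refine Polynomial.degree_sub_lt_left ?_ h0 ?_
        · rw [Polynomial.degree_taylor]
        · rw [Polynomial.leadingCoeff_taylor]
      rw [hq, e]
      rw [Polynomial.degree_eq_natDegree h0] at h2 hp
      have h3 : p.natDegree < m + 1 := by exact_mod_cast hp
      exact lt_of_lt_of_le h2 (by exact_mod_cast Nat.lt_succ_iff.1 h3)
    have key := ih (fun b => σ b.succ) q hq' c
    rw [← (Fin.consEquiv (fun _ : Fin (m+1) => Bool)).sum_comp, Fintype.sum_prod_type]
    simp only [Fintype.sum_bool]
    rw [← Finset.sum_add_distrib, ← key]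
    refine Finset.sum_congr rfl fun n _ => ?_
    have s1 : ∀ a : Bool, sgn (Fin.cons a n : Fin (m+1) → Bool)
        = (if a then (-1 : ℤ) else 1) * sgn n := by
      intro a
      unfold sgn
      rw [Fin.prod_univ_succ]
      simp
    have s2 : ∀ a : Bool, dsum σ (Fin.cons a n : Fin (m+1) → Bool)
        = (if a then σ 0 else 0) + dsum (fun b => σ b.succ) n := by
      intro a
      unfold dsum
      rw [Fin.sum_univ_succ]
      simp
    have e1 : (Fin.consEquiv (fun _ : Fin (m+1) => Bool)) (true, n) = Fin.cons true n := rfl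
    have e2 : (Fin.consEquiv (fun _ : Fin (m+1) => Bool)) (false, n) = Fin.cons false n := rfl
    rw [e1, e2, s1, s1, s2, s2, hq]
    simp only [if_true, Bool.false_eq_true, if_false, eval_sub, eval_comp, eval_add, eval_X, eval_C]
    have : c + (σ 0 + dsum (fun b => σ b.succ) n) = c + dsum (fun b => σ b.succ) n + σ 0 := by ring
    rw [this, zero_add]
    ring

/-- vanishing moments -/
theorem digit_moment (m : ℕ) (σ : Fin m → ℤ) (c : ℤ) (i : ℕ) (hi : i < m) :
    ∑ n : Fin m → Bool, sgn n * (c + dsum σ n) ^ i = 0 := by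
  have h := digit_poly m σ (X ^ i) (lt_of_le_of_lt (Polynomial.degree_X_pow_le i)
    (by exact_mod_cast hi)) c
  simpa using h

end Vale.Agent.P321.H535
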