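import Vale.Agent.P321.H535.Coarse
import Vale.Agent.P321.H834.CSpec

/-!
LB2, T-step: 834's reduction `StRed` from `coarse_split` (helper535).
-/

namespace Vale.Agent.P321.H535

open Finset H576

theorem stRed : H834.StRed := by
  intro V _ _ B k m d g F Q G C L1 L2 l w w' Lb lp lm hG hL hC hC1 h1 h2
  classical
  have hF := F_pos hG
  have hFQ := hG.FQ
  rw [coarse_split B hG hL h1 h2]
  -- the inner sums
  have inner : ∀ (n0 : Fin m → Bool) (n : E k → Fin m → Bool) (f : ℤ → V),
      ∑ s ∈ (Icc (-L1) L2).filter (fun s => 2 * F < |s - (Z n0 + S g n)|), f s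
        = (∑ s ∈ (Icc (-L1) L2).filter (fun s => Q < 2 * |s - S g n|), f s)
          + ∑ h ∈ (Icc (-Q) Q).filter (fun h => 2 * |h| ≤ Q ∧ 2 * F < |h - Z n0|),
              f (S g n + h) := by
    intro n0 n f
    have a1 := Z_nonneg n0
    have a2 := Z_le' hG n0
    have a3 := S_nonneg hG n
    have a4 := S_le hG n
    rw [← Finset.sum_filter_add_sum_filter_not
      ((Icc (-L1) L2).filter (fun s => 2 * F < |s - (Z n0 + S g n)|))
      (fun s => Q < 2 * |s - S g n|)]
    congr 1
    · refine Finset.sum_congr ?_ fun _ _ => rfl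
      rw [Finset.filter_filter]
      refine Finset.filter_congr fun s _ => ?_
      constructor
      · exact fun h => h.2
      · intro h
        refine ⟨?_, h⟩
        have h3 : |s - S g n| ≤ |s - (Z n0 + S g n)| + |Z n0| := by
          have := abs_add_le (s - (Z n0 + S g n)) (Z n0)
          have e : s - (Z n0 + S g n) + Z n0 = s - S g n := by ring
          rwa [e] at this
        rw [abs_of_nonneg a1] at h3
        linarith
    · refine Finset.sum_nbij' (fun s => s - S g n) (fun h => S g n + h) ?_ ?_ ?_ ?_ ?_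
      · intro s hs
        simp only [Finset.mem_filter, Finset.mem_Icc, not_lt] at hs ⊢
        have h3 : s - S g n - Z n0 = s - (Z n0 + S g n) := by ring
        rw [h3]
        refine ⟨?_, hs.2, hs.1.2⟩
        have h4 := hs.2
        have h5 : |s - S g n| ≤ Q := by
          have := abs_nonneg (s - S g n); linarith
        exact abs_le.1 h5
      · intro h hh
        simp only [Finset.mem_filter, Finset.mem_Icc, not_lt] at hh ⊢
        have h3 : S g n + h - (Z n0 + S g n) = h - Z n0 := by ring
        have h4 : S g n + h - S g n = h := by ring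
        rw [h3, h4]
        refine ⟨⟨?_, hh.2.2⟩, hh.2.1⟩
        have h5 := hh.2.1
        have h6 := abs_le.1 (show |h| ≤ |h| from le_refl _)
        constructor <;> linarith [h6.1, h6.2]
      · intro s _; ring
      · intro h _; ring
      · intro s _
        congr 1; ring
  have e1 : ∀ (n0 : Fin m → Bool) (n : E k → Fin m → Bool) (s : ℤ),
      (2 : ℝ) • Gs B C g w w' lp lm n0 n s
        = - ((sg n0 * sgE n) • H834.GG B C w w' lp lm (Z n0 + S g n) s) := by
    intro n0 n s
    unfold Gs Dt H834.GG
    rw [smul_comm, smul_smul (2 : ℝ) (1 / 2 : ℝ), show (2 : ℝ) * (1 / 2) = 1 by norm_num, one_smul,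
      ← smul_neg]
    congr 1
    abel
  have h3 : (2 : ℝ) • (∑ n : E k → Fin m → Bool, ∑ n0 : Fin m → Bool,
      ∑ s ∈ (Icc (-L1) L2).filter (fun s => 2 * F < |s - (Z n0 + S g n)|),
        Gs B C g w w' lp lm n0 n s)
      = ∑ n0 : Fin m → Bool, ∑ n : E k → Fin m → Bool, -((sg n0 * sgE n) •
        ∑ s ∈ (Icc (-L1) L2).filter (fun s => 2 * F < |s - (Z n0 + S g n)|),
          H834.GG B C w w' lp lm (Z n0 + S g n) s) := by
    rw [Finset.smul_sum, Finset.sum_congr rfl (fun n _ => Finset.smul_sum), Finset.sum_comm]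
    refine Finset.sum_congr rfl fun n0 _ => Finset.sum_congr rfl fun n _ => ?_
    rw [Finset.smul_sum, Finset.smul_sum, ← Finset.sum_neg_distrib]
    exact Finset.sum_congr rfl fun s _ => e1 n0 n s
  rw [h3, ← Finset.sum_add_distrib, ← Finset.sum_neg_distrib]
  refine Finset.sum_congr rfl fun n0 _ => ?_
  rw [← Finset.sum_add_distrib, ← Finset.sum_neg_distrib]
  refine Finset.sum_congr rfl fun n _ => ?_
  rw [inner, smul_add]

end Vale.Agent.P321.H535
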